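import Vale.Agent.P065.UB.H415.Cherry

/-!
# P065, upper bound: LEMMA M (multiplicity), literal Props (helper410)

Two windows of different leaves `a`, `b` contain at most `16 M` centres joined to both, for all but
`C #A ^ 2 #Q / D` of the cherries `(a, b; z)`, if `K L D ^ 6 #Q ≤ lam ^ 2 M`. The leaves are in any
finite set `A`; the only condition: a window contains at most `L #A / lam` leaves joined to `z`.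
-/

set_option autoImplicit false

namespace Vale.Agent.P065.UB.H410

open Finset Vale.Agent.P065.UB Vale.Agent.P065.UB.RankAux Vale.Agent.P065.H183
open Vale.Agent.P065.UB.H415 (prj)

open Classical in
/-- **one group** (989's form): a fixed leaf `c` and window `w0`, `g` = centres on one side of `c`
in the sector `I w0`; `Pr` = pairs (centre `z`, leaf `b`) such that the projection of `z` to the line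
of slope `m0 ∈ I w0` through `c` is seen from `b` in the window `Wd (z, b) ≠ w0`. -/
def StGroup : Prop :=
  ∀ (K lam : ℝ) (Q : Finset Pt) (W : Finset ℕ) (I : ℕ → Set ℝ) (R : ℕ → Finset Pt),
    JView K lam Q W I R → lam ^ 5 ≤ #Q →
    ∀ (c : Pt) (w0 : ℕ) (m0 : ℝ), w0 ∈ W → m0 ∈ I w0 →
    ∀ g A : Finset Pt, (∀ z ∈ g, z ∈ Q ∧ sl c z ∈ I w0) →
    ((∀ z ∈ g, c.1 < z.1) ∨ ∀ z ∈ g, z.1 < c.1) →
    ∀ (Pr : Finset (Pt × Pt)) (Wd : Pt × Pt → ℕ),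
    (∀ e ∈ Pr, e.1 ∈ g ∧ e.2 ∈ A ∧ Wd e ∈ W ∧ Wd e ≠ w0 ∧ e.1 ∈ R (Wd e) ∧ e.1.1 ≠ e.2.1 ∧
      sl (prj m0 c e.1) e.2 ∈ I (Wd e)) →
    ∀ L : ℝ, 1 ≤ L →
    (∀ z ∈ g, ∀ w ∈ W, lam * #{b ∈ A | (z, b) ∈ Pr ∧ Wd (z, b) = w} ≤ L * #A) →
    ∀ (M : ℕ) (D : ℝ), 1 ≤ M → 1 ≤ D → K * L * D ^ 6 * #Q ≤ lam ^ 2 * M →
    D * #{e ∈ Pr | M ≤ #{z ∈ g | (z, e.2) ∈ Pr ∧ Wd (z, e.2) = Wd e}} ≤
      (253 * #g + #{p ∈ Q | sl c p ∈ I w0}) * #A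

open Classical in
/-- **LEMMA M** -/
def StMult : Prop :=
  ∀ (K lam : ℝ) (Q : Finset Pt) (W : Finset ℕ) (I : ℕ → Set ℝ) (R : ℕ → Finset Pt),
    JView K lam Q W I R → lam ^ 5 ≤ #Q →
    ∀ (A : Finset Pt) (E : Finset (Pt × Pt)) (Wd : Pt × Pt → ℕ),
    (∀ e ∈ E, e.1 ∈ A ∧ e.2 ∈ Q ∧ Wd e ∈ W ∧ e.2 ∈ R (Wd e) ∧ e.1.1 ≠ e.2.1 ∧
      sl e.1 e.2 ∈ I (Wd e)) →
    ∀ L : ℝ, 1 ≤ L →
    (∀ z ∈ Q, ∀ w ∈ W, lam * #{a ∈ A | (a, z) ∈ E ∧ Wd (a, z) = w} ≤ L * #A) →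
    ∀ (M : ℕ) (D : ℝ), 1 ≤ M → 1 ≤ D → K * L * D ^ 6 * #Q ≤ lam ^ 2 * M →
    D * #{t ∈ A ×ˢ A ×ˢ Q | (t.1, t.2.2) ∈ E ∧ (t.2.1, t.2.2) ∈ E ∧
        Wd (t.1, t.2.2) ≠ Wd (t.2.1, t.2.2) ∧
        16 * M ≤ #{z ∈ Q | (t.1, z) ∈ E ∧ (t.2.1, z) ∈ E ∧
          Wd (t.1, z) = Wd (t.1, t.2.2) ∧ Wd (t.2.1, z) = Wd (t.2.1, t.2.2)}} ≤
      1028 * #A ^ 2 * #Q

end Vale.Agent.P065.UB.H410
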