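import Mathlib

/-!
# P065, upper bound: LEMMA M, abstract counting (helper410)
-/

set_option autoImplicit false

namespace Vale.Agent.P065.UB.H410

open Finset

variable {α : Type*}

/-- **incidences of connected classes with blocks**: `rk` = rank in a group `g`, `lab` has connected
classes on `F`; the classes with at least `M` members meet at most `3 #g / M` pairs (class, block) -/
theorem inc_le [DecidableEq α] (g F : Finset α) (rk lab : α → ℕ) (M : ℕ) (hF : F ⊆ g)
    (inj : ∀ x ∈ g, ∀ y ∈ g, rk x = rk y → x = y) (hrk : ∀ x ∈ g, rk x < #g)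
    (conn : ∀ x ∈ F, ∀ y ∈ F, ∀ z ∈ F, rk x < rk y → rk y < rk z → lab x = lab z → lab y = lab x) :
    M * #(({z ∈ F | M ≤ #{z' ∈ F | lab z' = lab z}}).image fun z => (lab z, rk z / M)) ≤
      3 * #g := by
  set Fb : Finset α := {z ∈ F | M ≤ #{z' ∈ F | lab z' = lab z}} with hFb
  set Inc : Finset (ℕ × ℕ) := Fb.image fun z => (lab z, rk z / M) with hInc
  have hFbF : ∀ z ∈ Fb, z ∈ F := fun z hz => (Finset.mem_filter.1 hz).1
  rcases Fb.eq_empty_or_nonempty with h0 | ⟨z0, hz0⟩
  · rw [hInc, h0]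
    simp
  have hMg : M ≤ #g := by
    refine (Finset.mem_filter.1 hz0).2.trans ((Finset.card_le_card (Finset.filter_subset _ _)).trans
      (Finset.card_le_card hF))
  -- labels
  have hL : M * #(Fb.image lab) ≤ #g := by
    calc M * #(Fb.image lab) = ∑ _l ∈ Fb.image lab, M := by rw [Finset.sum_const, smul_eq_mul, mul_comm]
      _ ≤ ∑ l ∈ Fb.image lab, #{z' ∈ F | lab z' = l} := by
          apply Finset.sum_le_sum
          intro l hl
          obtain ⟨z, hz, rfl⟩ := Finset.mem_image.1 hl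
          exact (Finset.mem_filter.1 hz).2
      _ = #((Fb.image lab).biUnion fun l => {z' ∈ F | lab z' = l}) := by
          rw [Finset.card_biUnion]
          intro l _ l' _ hne
          rw [Function.onFun, Finset.disjoint_left]
          intro z h1 h2
          exact hne ((Finset.mem_filter.1 h1).2.symm.trans (Finset.mem_filter.1 h2).2)
      _ ≤ #g := by
          apply Finset.card_le_card
          intro z hz
          obtain ⟨l, _, h⟩ := Finset.mem_biUnion.1 hz
          exact hF (Finset.mem_filter.1 h).1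
  -- split
  have hsplit : #Inc ≤ #{p ∈ Inc | ∀ p' ∈ Inc, p'.1 = p.1 → p.2 ≤ p'.2} +
      #{p ∈ Inc | ¬ ∀ p' ∈ Inc, p'.1 = p.1 → p.2 ≤ p'.2} := by
    rw [Finset.card_filter_add_card_filter_not]
  have h1 : #{p ∈ Inc | ∀ p' ∈ Inc, p'.1 = p.1 → p.2 ≤ p'.2} ≤ #(Fb.image lab) := by
    apply Finset.card_le_card_of_injOn (fun p => p.1)
    · intro p hp
      have hp' := (Finset.mem_filter.1 (Finset.mem_coe.1 hp)).1
      obtain ⟨z, hz, rfl⟩ := Finset.mem_image.1 hp'
      exact Finset.mem_coe.2 (Finset.mem_image.2 ⟨z, hz, rfl⟩)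
    · intro p hp q hq hpq
      have hp' := Finset.mem_filter.1 (Finset.mem_coe.1 hp)
      have hq' := Finset.mem_filter.1 (Finset.mem_coe.1 hq)
      have h1 := hp'.2 q hq'.1 hpq.symm
      have h2 := hq'.2 p hp'.1 hpq
      exact Prod.ext hpq (le_antisymm h1 h2)
  have hlt : ∀ x y : α, rk x / M < rk y / M → rk x < rk y := by
    intro x y h
    by_contra hcon
    exact absurd (Nat.div_le_div_right (c := M) (not_lt.1 hcon)) (not_le.2 h)
  have h2 : #{p ∈ Inc | ¬ ∀ p' ∈ Inc, p'.1 = p.1 → p.2 ≤ p'.2} ≤ (#g - 1) / M + 1 := by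
    rw [← Finset.card_range ((#g - 1) / M + 1)]
    apply Finset.card_le_card_of_injOn (fun p => p.2)
    · intro p hp
      have hp' := (Finset.mem_filter.1 (Finset.mem_coe.1 hp)).1
      obtain ⟨z, hz, rfl⟩ := Finset.mem_image.1 hp'
      apply Finset.mem_coe.2
      rw [Finset.mem_range]
      have := hrk z (hF (hFbF z hz))
      exact Nat.lt_succ_of_le (Nat.div_le_div_right (by omega))
    · intro p hp q hq hpq
      obtain ⟨hp1, hp2⟩ := Finset.mem_filter.1 (Finset.mem_coe.1 hp)
      obtain ⟨hq1, hq2⟩ := Finset.mem_filter.1 (Finset.mem_coe.1 hq)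
      push Not at hp2 hq2
      obtain ⟨p', hp'1, hp'2, hp'3⟩ := hp2
      obtain ⟨q', hq'1, hq'2, hq'3⟩ := hq2
      obtain ⟨x, hx, rfl⟩ := Finset.mem_image.1 hp1
      obtain ⟨y, hy, rfl⟩ := Finset.mem_image.1 hq1
      obtain ⟨x', hx', rfl⟩ := Finset.mem_image.1 hp'1
      obtain ⟨y', hy', rfl⟩ := Finset.mem_image.1 hq'1
      simp only at hpq hp'2 hp'3 hq'2 hq'3 ⊢
      have e1 : rk x' < rk x := hlt _ _ hp'3
      have e2 : rk y' < rk y := hlt _ _ hq'3
      have e3 : rk x' < rk y := hlt _ _ (by rw [← hpq]; exact hp'3)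
      have e4 : rk y' < rk x := hlt _ _ (by rw [hpq]; exact hq'3)
      have hlab : lab x = lab y := by
        rcases lt_trichotomy (rk x') (rk y') with h | h | h
        · have := conn x' (hFbF _ hx') y' (hFbF _ hy') x (hFbF _ hx) h e4 hp'2
          rw [← hp'2, ← hq'2, this]
        · have := inj x' (hF (hFbF _ hx')) y' (hF (hFbF _ hy')) h
          rw [← hp'2, ← hq'2, this]
        · have := conn y' (hFbF _ hy') x' (hFbF _ hx') y (hFbF _ hy) h e3 hq'2
          rw [← hp'2, ← hq'2, this]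
      exact Prod.ext hlab hpq
  have h3 : M * ((#g - 1) / M + 1) ≤ 2 * #g := by
    have := Nat.mul_div_le (#g - 1) M
    rw [mul_add, mul_one]
    omega
  calc M * #Inc ≤ M * (#(Fb.image lab) + ((#g - 1) / M + 1)) := Nat.mul_le_mul_left _ (by omega)
    _ = M * #(Fb.image lab) + M * ((#g - 1) / M + 1) := Nat.mul_add _ _ _
    _ ≤ 3 * #g := by omega

/-- the members of big classes that are rare in their block -/
theorem sparse_le [DecidableEq α] (g F : Finset α) (rk lab : α → ℕ) (M : ℕ)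
    (hF : F ⊆ g) (inj : ∀ x ∈ g, ∀ y ∈ g, rk x = rk y → x = y) (hrk : ∀ x ∈ g, rk x < #g)
    (conn : ∀ x ∈ F, ∀ y ∈ F, ∀ z ∈ F, rk x < rk y → rk y < rk z → lab x = lab z → lab y = lab x)
    (D : ℝ) (_hD : 0 < D) (S : Finset α)
    (hS : ∀ z ∈ S, z ∈ F ∧ M ≤ #{z' ∈ F | lab z' = lab z} ∧
      D * #{z' ∈ F | lab z' = lab z ∧ rk z' / M = rk z / M} ≤ M) :
    D * #S ≤ 3 * #g := by
  have h := inc_le g F rk lab M hF inj hrk conn
  set Fb : Finset α := {z ∈ F | M ≤ #{z' ∈ F | lab z' = lab z}} with hFb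
  set key : α → ℕ × ℕ := fun z => (lab z, rk z / M) with hkey
  have hsub : S.image key ⊆ Fb.image key := by
    apply Finset.image_subset_image
    intro z hz
    exact Finset.mem_filter.2 ⟨(hS z hz).1, (hS z hz).2.1⟩
  have h1 : (#S : ℝ) = ∑ p ∈ S.image key, (#{z ∈ S | key z = p} : ℝ) := by
    rw [Finset.card_eq_sum_card_image key S]
    push_cast
    rfl
  have h2 : D * #S ≤ ∑ _p ∈ S.image key, (M : ℝ) := by
    rw [h1, Finset.mul_sum]
    apply Finset.sum_le_sum
    intro p hp
    obtain ⟨z, hz, rfl⟩ := Finset.mem_image.1 hp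
    refine le_trans ?_ (hS z hz).2.2
    apply mul_le_mul_of_nonneg_left _ _hD.le
    have : #{z' ∈ S | key z' = key z} ≤ #{z' ∈ F | lab z' = lab z ∧ rk z' / M = rk z / M} := by
      apply Finset.card_le_card
      intro z' hz'
      obtain ⟨a1, a2⟩ := Finset.mem_filter.1 hz'
      rw [hkey] at a2
      exact Finset.mem_filter.2 ⟨(hS z' a1).1, (Prod.ext_iff.1 a2).1, (Prod.ext_iff.1 a2).2⟩
    exact_mod_cast this
  have h3 : (M : ℝ) * #(Fb.image key) ≤ 3 * #g := by exact_mod_cast h
  have h4 : (#(S.image key) : ℝ) ≤ #(Fb.image key) := by exact_mod_cast Finset.card_le_card hsub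
  calc D * #S ≤ ∑ _p ∈ S.image key, (M : ℝ) := h2
    _ = M * #(S.image key) := by rw [Finset.sum_const, nsmul_eq_mul, mul_comm]
    _ ≤ M * #(Fb.image key) := mul_le_mul_of_nonneg_left h4 (Nat.cast_nonneg _)
    _ ≤ 3 * #g := h3

/-- **symmetrisation**: splitting the classes into 8 types loses a factor 2 -/
theorem types_le {β γ : Type*} [DecidableEq α] [DecidableEq β] [DecidableEq γ] [Fintype γ]
    (X : Finset α) (f : α → β) (τ : α → γ) (hγ : Fintype.card γ ≤ 8) (M : ℕ) :
    #{x ∈ X | 16 * M ≤ #{y ∈ X | f y = f x}} ≤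
      2 * #{x ∈ X | M ≤ #{y ∈ X | f y = f x ∧ τ y = τ x}} := by
  set B : Finset α := {x ∈ X | 16 * M ≤ #{y ∈ X | f y = f x}} with hB
  set G : Finset α := {x ∈ X | M ≤ #{y ∈ X | f y = f x ∧ τ y = τ x}} with hG
  have h1 : #B = ∑ p ∈ B.image f, #{z ∈ B | f z = p} := Finset.card_eq_sum_card_image f B
  have key : ∀ p ∈ B.image f, #{z ∈ B | f z = p} ≤ 2 * #{z ∈ G | f z = p} := by
    intro p hp
    obtain ⟨x, hx, rfl⟩ := Finset.mem_image.1 hp
    have hx2 : 16 * M ≤ #{y ∈ X | f y = f x} := (Finset.mem_filter.1 hx).2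
    have a1 : #{z ∈ B | f z = f x} ≤ #{y ∈ X | f y = f x} :=
      Finset.card_le_card fun z hz =>
        Finset.mem_filter.2 ⟨(Finset.mem_filter.1 (Finset.mem_filter.1 hz).1).1,
          (Finset.mem_filter.1 hz).2⟩
    -- points of small type classes
    have a2 : #{y ∈ X | f y = f x} ≤ #{z ∈ G | f z = f x} + 8 * M := by
      have b1 : {y ∈ X | f y = f x} ⊆ {z ∈ G | f z = f x} ∪
          (Finset.univ : Finset γ).biUnion fun t =>
            if #{y ∈ X | f y = f x ∧ τ y = t} ≤ M then {y ∈ X | f y = f x ∧ τ y = t} else ∅ := by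
        intro y hy
        obtain ⟨y1, y2⟩ := Finset.mem_filter.1 hy
        rw [Finset.mem_union]
        by_cases h : M ≤ #{y' ∈ X | f y' = f y ∧ τ y' = τ y}
        · exact Or.inl (Finset.mem_filter.2 ⟨Finset.mem_filter.2 ⟨y1, h⟩, y2⟩)
        · right
          rw [Finset.mem_biUnion]
          refine ⟨τ y, Finset.mem_univ _, ?_⟩
          rw [y2] at h
          rw [if_pos (not_le.1 h).le]
          exact Finset.mem_filter.2 ⟨y1, y2, rfl⟩
      refine (Finset.card_le_card b1).trans ((Finset.card_union_le _ _).trans ?_)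
      apply Nat.add_le_add_left
      refine Finset.card_biUnion_le.trans ?_
      calc _ ≤ ∑ _t ∈ (Finset.univ : Finset γ), M := by
            apply Finset.sum_le_sum
            intro t _
            split_ifs with h
            · exact h
            · simp
        _ = Fintype.card γ * M := by rw [Finset.sum_const, Finset.card_univ, smul_eq_mul]
        _ ≤ 8 * M := Nat.mul_le_mul_right _ hγ
    omega
  calc #B = ∑ p ∈ B.image f, #{z ∈ B | f z = p} := h1
    _ ≤ ∑ p ∈ B.image f, 2 * #{z ∈ G | f z = p} := Finset.sum_le_sum key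
    _ = 2 * ∑ p ∈ B.image f, #{z ∈ G | f z = p} := by rw [Finset.mul_sum]
    _ = 2 * #((B.image f).biUnion fun p => {z ∈ G | f z = p}) := by
        rw [Finset.card_biUnion]
        intro l _ l' _ hne
        rw [Function.onFun, Finset.disjoint_left]
        intro z h1 h2
        exact hne ((Finset.mem_filter.1 h1).2.symm.trans (Finset.mem_filter.1 h2).2)
    _ ≤ 2 * #G := by
        apply Nat.mul_le_mul_left
        apply Finset.card_le_card
        intro z hz
        obtain ⟨l, _, h⟩ := Finset.mem_biUnion.1 hz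
        exact (Finset.mem_filter.1 h).1

end Vale.Agent.P065.UB.H410
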