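import Vale.Agent.P065.UB.H410.MultDefs
import Vale.Agent.P065.UB.H410.MultAbs

/-!
# P065, upper bound: LEMMA M, one group (helper410)
-/

set_option autoImplicit false

namespace Vale.Agent.P065.UB.H410

open Finset Vale.Agent.P065.UB Vale.Agent.P065.UB.RankAux Vale.Agent.P065.H183
open Vale.Agent.P065.UB.H415 (prj)

theorem sl_prj_eq {m0 : ℝ} {c z b : Pt} (h : z.1 ≠ b.1) :
    sl (prj m0 c z) b = m0 + (b.2 - c.2 - m0 * (b.1 - c.1)) / (b.1 - z.1) := by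
  have h1 : b.1 - z.1 ≠ 0 := sub_ne_zero.2 (Ne.symm h)
  unfold sl prj
  simp only
  rw [div_eq_iff h1, add_mul, div_mul_cancel₀ _ h1]
  ring

theorem oc_mem {T : Set ℝ} (hT : T.OrdConnected) {x y z : ℝ} (hx : x ∈ T) (hy : y ∈ T)
    (h : (x ≤ z ∧ z ≤ y) ∨ (y ≤ z ∧ z ≤ x)) : z ∈ T := by
  rcases h with h | h
  · exact hT.out hx hy h
  · exact hT.out hy hx h

/-- **monotone**: seen from `b`, a window that does not contain the slope `m0` contains a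
connected part of the line of slope `m0` -/
theorem mono_line {T : Set ℝ} (hT : T.OrdConnected) {m0 : ℝ} (hm0 : m0 ∉ T) {c b x y z : Pt}
    (hxy : x.1 < y.1) (hyz : y.1 < z.1) (hxb : x.1 ≠ b.1) (hyb : y.1 ≠ b.1) (hzb : z.1 ≠ b.1)
    (hx : sl (prj m0 c x) b ∈ T) (hz : sl (prj m0 c z) b ∈ T) : sl (prj m0 c y) b ∈ T := by
  rw [sl_prj_eq hxb] at hx
  rw [sl_prj_eq hzb] at hz
  rw [sl_prj_eq hyb]
  set v := b.2 - c.2 - m0 * (b.1 - c.1) with hv
  have hA : b.1 - x.1 ≠ 0 := sub_ne_zero.2 (Ne.symm hxb)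
  have hC : b.1 - z.1 ≠ 0 := sub_ne_zero.2 (Ne.symm hzb)
  have hAC : b.1 - z.1 < b.1 - x.1 := by linarith
  -- `b` is not between
  have hside : 0 < b.1 - z.1 ∨ b.1 - x.1 < 0 := by
    by_contra hcon
    push Not at hcon
    have h1 : b.1 - z.1 < 0 := lt_of_le_of_ne hcon.1 hC
    have h2 : 0 < b.1 - x.1 := lt_of_le_of_ne hcon.2 (Ne.symm hA)
    apply hm0
    refine oc_mem hT hx hz ?_
    rcases le_total 0 v with hv0 | hv0
    · right
      constructor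
      · have := div_nonpos_of_nonneg_of_nonpos hv0 h1.le
        linarith
      · have := div_nonneg hv0 h2.le
        linarith
    · left
      constructor
      · have := div_nonpos_of_nonpos_of_nonneg hv0 h2.le
        linarith
      · have := div_nonneg_of_nonpos hv0 h1.le
        linarith
  have hinv : 1 / (b.1 - x.1) ≤ 1 / (b.1 - y.1) ∧ 1 / (b.1 - y.1) ≤ 1 / (b.1 - z.1) := by
    rcases hside with h | h
    · exact ⟨one_div_le_one_div_of_le (by linarith) (by linarith),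
        one_div_le_one_div_of_le h (by linarith)⟩
    · exact ⟨one_div_le_one_div_of_neg_of_le (by linarith) (by linarith),
        one_div_le_one_div_of_neg_of_le (by linarith) (by linarith)⟩
  have e1 : v / (b.1 - x.1) = v * (1 / (b.1 - x.1)) := by ring
  have e2 : v / (b.1 - y.1) = v * (1 / (b.1 - y.1)) := by ring
  have e3 : v / (b.1 - z.1) = v * (1 / (b.1 - z.1)) := by ring
  refine oc_mem hT hx hz ?_
  rw [e1, e2, e3]
  rcases le_total 0 v with hv0 | hv0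
  · left
    exact ⟨by linarith [mul_le_mul_of_nonneg_left hinv.1 hv0],
      by linarith [mul_le_mul_of_nonneg_left hinv.2 hv0]⟩
  · right
    exact ⟨by linarith [mul_le_mul_of_nonpos_left hinv.2 hv0],
      by linarith [mul_le_mul_of_nonpos_left hinv.1 hv0]⟩

/-- the rank by abscissa -/
noncomputable def rk (g : Finset Pt) (z : Pt) : ℕ := #{z' ∈ g | z'.1 < z.1}

theorem rk_mono (g : Finset Pt) {x y : Pt} (h : x.1 ≤ y.1) : rk g x ≤ rk g y :=
  Finset.card_le_card fun _ hz => Finset.mem_filter.2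
    ⟨(Finset.mem_filter.1 hz).1, lt_of_lt_of_le (Finset.mem_filter.1 hz).2 h⟩

theorem rk_strict (g : Finset Pt) {x y : Pt} (hx : x ∈ g) (h : x.1 < y.1) : rk g x < rk g y := by
  apply Finset.card_lt_card
  rw [Finset.ssubset_iff_of_subset]
  · exact ⟨x, Finset.mem_filter.2 ⟨hx, h⟩, fun h4 => lt_irrefl _ (Finset.mem_filter.1 h4).2⟩
  · exact fun _ hz => Finset.mem_filter.2
      ⟨(Finset.mem_filter.1 hz).1, (Finset.mem_filter.1 hz).2.trans h⟩

theorem rk_lt (g : Finset Pt) {x y : Pt} (h : rk g x < rk g y) : x.1 < y.1 := by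
  by_contra hcon
  exact absurd (rk_mono g (not_lt.1 hcon)) (not_le.2 h)

theorem rk_lt_card (g : Finset Pt) {x : Pt} (hx : x ∈ g) : rk g x < #g := by
  apply Finset.card_lt_card
  rw [Finset.ssubset_iff_of_subset (Finset.filter_subset _ _)]
  exact ⟨x, hx, fun h4 => lt_irrefl _ (Finset.mem_filter.1 h4).2⟩

open Classical in
/-- **STAR** for one small cell: few windows are rich in it -/
theorem star_cell {K lam : ℝ} {Q : Finset Pt} {W : Finset ℕ} {I : ℕ → Set ℝ}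
    {R : ℕ → Finset Pt} (h : JView K lam Q W I R) (hN : lam ^ 5 ≤ #Q) (H : ℕ → Set Pt)
    (hH : ∀ i ∈ Finset.range 4, IsHalf (H i)) (Z : Finset Pt)
    (hZ : ∀ z, z ∈ Z ↔ z ∈ Q ∧ ∀ i ∈ Finset.range 4, z ∈ H i) (M : ℕ) (hM : 1 ≤ M) (D : ℝ)
    (hD : 1 ≤ D) (hNM : (#Q : ℝ) ≤ lam ^ 2 * M) (hZM : (#Z : ℝ) ≤ D * M) :
    lam * M * #{w ∈ W | (M : ℝ) ≤ D * #(R w ∩ Z)} ≤ 250 * K * D ^ 5 * #Q := by
  have hK := h.two
  have hlam := h.one
  have hM0 : (0 : ℝ) < M := by exact_mod_cast hM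
  have hD0 : 0 < D := by linarith
  have hQ0 : (0 : ℝ) ≤ #Q := Nat.cast_nonneg _
  have hst := h.star (Finset.range 4) H hH Z hZ
  rw [Finset.card_range] at hst
  set V : Finset ℕ := {w ∈ W | (M : ℝ) ≤ D * #(R w ∩ Z)} with hV
  -- lower bound of the sum
  have h1 : (#V : ℝ) * (M / D) ^ 3 ≤ ∑ w ∈ W, (#(R w ∩ Z) : ℝ) ^ 3 := by
    calc (#V : ℝ) * (M / D) ^ 3 = ∑ _w ∈ V, ((M : ℝ) / D) ^ 3 := by
          rw [Finset.sum_const, nsmul_eq_mul]
      _ ≤ ∑ w ∈ V, (#(R w ∩ Z) : ℝ) ^ 3 := by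
          apply Finset.sum_le_sum
          intro w hw
          apply pow_le_pow_left₀ (by positivity)
          rw [div_le_iff₀ hD0, mul_comm]
          exact (Finset.mem_filter.1 hw).2
      _ ≤ _ := Finset.sum_le_sum_of_subset_of_nonneg (Finset.filter_subset _ _)
          (fun _ _ _ => by positivity)
  -- the error term
  have h2 : lam * #Q ≤ (M : ℝ) ^ 2 := by
    have a1 : (#Q : ℝ) * #Q ≤ (lam ^ 2 * M) * (lam ^ 2 * M) := mul_le_mul hNM hNM hQ0 (by positivity)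
    have a2 : lam ^ 5 * #Q ≤ (#Q : ℝ) * #Q := mul_le_mul_of_nonneg_right hN hQ0
    have a3 : lam ^ 4 * (lam * #Q) ≤ lam ^ 4 * (M : ℝ) ^ 2 := by nlinarith
    exact le_of_mul_le_mul_left a3 (by positivity)
  have h3 : (#Z : ℝ) ^ 2 ≤ D ^ 2 * M ^ 2 := by
    calc (#Z : ℝ) ^ 2 ≤ (D * M) ^ 2 := pow_le_pow_left₀ (Nat.cast_nonneg _) hZM 2
      _ = D ^ 2 * M ^ 2 := by ring
  have h4 : (#Q : ℝ) * #Z ^ 2 + lam * #Q ^ 2 ≤ 2 * (#Q * (D ^ 2 * M ^ 2)) := by
    have b1 : (#Q : ℝ) * #Z ^ 2 ≤ #Q * (D ^ 2 * M ^ 2) := mul_le_mul_of_nonneg_left h3 hQ0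
    have b2 : lam * (#Q : ℝ) ^ 2 ≤ #Q * (D ^ 2 * M ^ 2) := by
      calc lam * (#Q : ℝ) ^ 2 = #Q * (lam * #Q) := by ring
        _ ≤ #Q * (M : ℝ) ^ 2 := mul_le_mul_of_nonneg_left h2 hQ0
        _ ≤ #Q * (D ^ 2 * M ^ 2) := by
            apply mul_le_mul_of_nonneg_left _ hQ0
            have : (1 : ℝ) ≤ D ^ 2 := one_le_pow₀ hD
            nlinarith [sq_nonneg (M : ℝ)]
    linarith
  have h5 : lam * ((#V : ℝ) * (M / D) ^ 3) ≤ 250 * K * (#Q * (D ^ 2 * M ^ 2)) := by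
    calc lam * ((#V : ℝ) * (M / D) ^ 3) ≤ lam * ∑ w ∈ W, (#(R w ∩ Z) : ℝ) ^ 3 :=
          mul_le_mul_of_nonneg_left h1 (by linarith)
      _ ≤ K * ((4 : ℕ) + 1 : ℝ) ^ 3 * (#Q * (#Z : ℝ) ^ 2 + lam * (#Q : ℝ) ^ 2) := hst
      _ ≤ K * ((4 : ℕ) + 1 : ℝ) ^ 3 * (2 * (#Q * (D ^ 2 * M ^ 2))) :=
          mul_le_mul_of_nonneg_left h4 (by positivity)
      _ = 250 * K * (#Q * (D ^ 2 * M ^ 2)) := by push_cast; ring
  have h6 : (lam * M * #V) * (M ^ 2 / D ^ 3) ≤ (250 * K * D ^ 5 * #Q) * (M ^ 2 / D ^ 3) := by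
    calc (lam * M * #V) * (M ^ 2 / D ^ 3) = lam * ((#V : ℝ) * (M / D) ^ 3) := by
          rw [div_pow]; ring
      _ ≤ 250 * K * (#Q * (D ^ 2 * M ^ 2)) := h5
      _ = (250 * K * D ^ 5 * #Q) * (M ^ 2 / D ^ 3) := by
          field_simp
  exact le_of_mul_le_mul_right h6 (by positivity)

/-- the cell of a block: abscissas in the hull of `B`, between the lines of slope `t1`, `t2`
through `c` (`σ = 1`: right side, `σ = -1`: left side) -/
def HH (c : Pt) (σ t1 t2 : ℝ) (B : Finset Pt) (i : ℕ) : Set Pt :=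
  if i = 0 then {p | ∃ x ∈ B, x.1 ≤ p.1}
  else if i = 1 then {p | ∃ x ∈ B, p.1 ≤ x.1}
  else if i = 2 then {p | t1 * (σ * (p.1 - c.1)) ≤ σ * (p.2 - c.2)}
  else {p | σ * (p.2 - c.2) ≤ t2 * (σ * (p.1 - c.1))}

theorem HH_isHalf (c : Pt) (σ t1 t2 : ℝ) (B : Finset Pt) (i : ℕ) : IsHalf (HH c σ t1 t2 B i) := by
  unfold HH
  split_ifs with h0 h1 h2
  · refine ⟨-1, 0, ?_⟩
    rintro z z' h ⟨x, hx, hx'⟩
    exact ⟨x, hx, by linarith⟩
  · refine ⟨1, 0, ?_⟩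
    rintro z z' h ⟨x, hx, hx'⟩
    exact ⟨x, hx, by linarith⟩
  · refine ⟨t1 * σ, -σ, ?_⟩
    intro z z' h hz'
    have h2 : t1 * (σ * (z'.1 - c.1)) ≤ σ * (z'.2 - c.2) := hz'
    show t1 * (σ * (z.1 - c.1)) ≤ σ * (z.2 - c.2)
    nlinarith
  · refine ⟨-(t2 * σ), σ, ?_⟩
    intro z z' h hz'
    have h2 : σ * (z'.2 - c.2) ≤ t2 * (σ * (z'.1 - c.1)) := hz'
    show σ * (z.2 - c.2) ≤ t2 * (σ * (z.1 - c.1))
    nlinarith

theorem sl_σ {c p : Pt} {σ t : ℝ} (h : 0 < σ * (p.1 - c.1)) :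
    (t ≤ sl c p ↔ t * (σ * (p.1 - c.1)) ≤ σ * (p.2 - c.2)) ∧
    (sl c p ≤ t ↔ σ * (p.2 - c.2) ≤ t * (σ * (p.1 - c.1))) := by
  have hσ : σ ≠ 0 := by
    rintro rfl
    rw [zero_mul] at h
    exact lt_irrefl _ h
  have e : sl c p = (σ * (p.2 - c.2)) / (σ * (p.1 - c.1)) := by
    unfold sl
    rw [mul_div_mul_left _ _ hσ]
  rw [e]
  exact ⟨le_div_iff₀ h, div_le_iff₀ h⟩

open Classical in
/-- part 1: pairs that are rare in their block -/
theorem part1 (g A : Finset Pt) (Pr : Finset (Pt × Pt)) (Wd : Pt × Pt → ℕ)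
    (hPr : ∀ e ∈ Pr, e.1 ∈ g ∧ e.2 ∈ A)
    (hinjg : ∀ x ∈ g, ∀ y ∈ g, rk g x = rk g y → x = y) (M : ℕ) (D : ℝ) (hD0 : 0 < D)
    (conn : ∀ b x y z : Pt, (x, b) ∈ Pr → (y, b) ∈ Pr → (z, b) ∈ Pr → rk g x < rk g y →
      rk g y < rk g z → Wd (x, b) = Wd (z, b) → Wd (y, b) = Wd (x, b))
    (S1 : Finset (Pt × Pt)) (hS1 : ∀ e ∈ S1, e ∈ Pr ∧
      M ≤ #{z ∈ g | (z, e.2) ∈ Pr ∧ Wd (z, e.2) = Wd e} ∧
      D * #{z ∈ {z ∈ g | (z, e.2) ∈ Pr} | Wd (z, e.2) = Wd e ∧ rk g z / M = rk g e.1 / M} ≤ M) :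
    D * #S1 ≤ 3 * #g * #A := by
  have e1 : (#S1 : ℝ) ≤ ∑ b ∈ A, (#{z ∈ g | (z, b) ∈ S1} : ℝ) := by
    have : #S1 ≤ ∑ b ∈ A, #{z ∈ g | (z, b) ∈ S1} := by
      calc #S1 = ∑ b ∈ A, #{e ∈ S1 | e.2 = b} := by
            apply Finset.card_eq_sum_card_fiberwise
            intro e he
            exact Finset.mem_coe.2 (hPr e (hS1 e (Finset.mem_coe.1 he)).1).2
        _ ≤ ∑ b ∈ A, #{z ∈ g | (z, b) ∈ S1} := by
            apply Finset.sum_le_sum
            intro b _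
            apply Finset.card_le_card_of_injOn (fun e => e.1)
            · intro e he
              obtain ⟨h1, h2⟩ := Finset.mem_filter.1 (Finset.mem_coe.1 he)
              apply Finset.mem_coe.2
              refine Finset.mem_filter.2 ⟨(hPr e (hS1 e h1).1).1, ?_⟩
              rw [← h2]
              exact h1
            · intro e he e' he' hee
              have h1 := (Finset.mem_filter.1 (Finset.mem_coe.1 he)).2
              have h2 := (Finset.mem_filter.1 (Finset.mem_coe.1 he')).2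
              exact Prod.ext hee (h1.trans h2.symm)
    exact_mod_cast this
  calc D * #S1 ≤ D * ∑ b ∈ A, (#{z ∈ g | (z, b) ∈ S1} : ℝ) :=
        mul_le_mul_of_nonneg_left e1 hD0.le
    _ = ∑ b ∈ A, D * #{z ∈ g | (z, b) ∈ S1} := Finset.mul_sum _ _ _
    _ ≤ ∑ _b ∈ A, (3 * #g : ℝ) := by
        apply Finset.sum_le_sum
        intro b _
        apply sparse_le g {z ∈ g | (z, b) ∈ Pr} (rk g) (fun z => Wd (z, b)) M
          (Finset.filter_subset _ _) hinjg (fun x hx => rk_lt_card g hx) _ D hD0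
        · intro z hz
          obtain ⟨z1, z2⟩ := Finset.mem_filter.1 hz
          obtain ⟨z3, z4, z5⟩ := hS1 _ z2
          refine ⟨Finset.mem_filter.2 ⟨z1, z3⟩, ?_, z5⟩
          simp only at z4
          rwa [Finset.filter_filter]
        · intro x hx y hy z hz hxy hyz hlab
          exact conn b x y z (Finset.mem_filter.1 hx).2 (Finset.mem_filter.1 hy).2
            (Finset.mem_filter.1 hz).2 hxy hyz hlab
    _ = 3 * #g * #A := by rw [Finset.sum_const, nsmul_eq_mul, mul_comm]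

open Classical in
/-- part 2: centres in heavy blocks -/
theorem part2 (g Sec : Finset Pt) (blk : Pt → ℕ) (Z : ℕ → Finset Pt) (M : ℕ) (D : ℝ)
    (hD0 : 0 < D) (hBM : ∀ i, #{z ∈ g | blk z = i} ≤ M)
    (hZdisj : ∀ i j, i < j → Disjoint (Z i) (Z j)) (hZsec : ∀ i, Z i ⊆ Sec) :
    D * #{z ∈ g | D * M < #(Z (blk z))} ≤ #Sec := by
  set g2 : Finset Pt := {z ∈ g | D * M < #(Z (blk z))} with hg2
  have e1 : (#g2 : ℝ) ≤ ∑ i ∈ g2.image blk, (M : ℝ) := by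
    calc (#g2 : ℝ) = ∑ i ∈ g2.image blk, (#{z ∈ g2 | blk z = i} : ℝ) := by
          rw [Finset.card_eq_sum_card_image blk g2]
          push_cast
          rfl
      _ ≤ ∑ i ∈ g2.image blk, (M : ℝ) := by
          apply Finset.sum_le_sum
          intro i _
          have : #{z ∈ g2 | blk z = i} ≤ M := by
            refine (Finset.card_le_card ?_).trans (hBM i)
            intro z hz
            obtain ⟨z1, z2⟩ := Finset.mem_filter.1 hz
            exact Finset.mem_filter.2 ⟨(Finset.mem_filter.1 z1).1, z2⟩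
          exact_mod_cast this
  have e2 : ∑ i ∈ g2.image blk, #(Z i) ≤ #Sec := by
    rw [← Finset.card_biUnion]
    · apply Finset.card_le_card
      intro p hp
      obtain ⟨i, _, hi⟩ := Finset.mem_biUnion.1 hp
      exact hZsec i hi
    · intro i _ j _ hne
      rcases lt_or_gt_of_ne hne with h1 | h1
      · exact hZdisj i j h1
      · exact (hZdisj j i h1).symm
  calc D * #g2 ≤ D * ∑ i ∈ g2.image blk, (M : ℝ) := mul_le_mul_of_nonneg_left e1 hD0.le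
    _ = ∑ i ∈ g2.image blk, D * (M : ℝ) := Finset.mul_sum _ _ _
    _ ≤ ∑ i ∈ g2.image blk, (#(Z i) : ℝ) := by
        apply Finset.sum_le_sum
        intro i hi
        obtain ⟨z, hz, rfl⟩ := Finset.mem_image.1 hi
        exact (Finset.mem_filter.1 hz).2.le
    _ ≤ #Sec := by exact_mod_cast e2

theorem arith3 {lam K L D Mr q a v s : ℝ} (hlam : 0 < lam) (hM : 0 < Mr)
    (hD : 0 < D) (hL : 0 < L) (ha : 0 ≤ a) (h1 : lam * s ≤ v * (L * a))
    (h2 : lam * Mr * v ≤ 250 * K * D ^ 5 * q) (h3 : K * L * D ^ 6 * q ≤ lam ^ 2 * Mr) :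
    D * s ≤ 250 * a := by
  have e4 : (lam ^ 2 * Mr) * (D * s) ≤ (lam ^ 2 * Mr) * (250 * a) := by
    calc (lam ^ 2 * Mr) * (D * s) = (lam * Mr * D) * (lam * s) := by ring
      _ ≤ (lam * Mr * D) * (v * (L * a)) := mul_le_mul_of_nonneg_left h1 (by positivity)
      _ = (lam * Mr * v) * (D * L * a) := by ring
      _ ≤ (250 * K * D ^ 5 * q) * (D * L * a) := mul_le_mul_of_nonneg_right h2 (by positivity)
      _ = (K * L * D ^ 6 * q) * (250 * a) := by ring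
      _ ≤ (lam ^ 2 * Mr) * (250 * a) := mul_le_mul_of_nonneg_right h3 (by positivity)
  exact le_of_mul_le_mul_left e4 (by positivity)

open Classical in
/-- part 3: the remaining pairs -/
theorem part3 (g A : Finset Pt) (Pr : Finset (Pt × Pt)) (Wd : Pt × Pt → ℕ)
    (hPr : ∀ e ∈ Pr, e.1 ∈ g ∧ e.2 ∈ A) (D : ℝ) (hD0 : 0 < D) (V : Pt → Finset ℕ)
    (p : Pt → Prop) (S3 : Finset (Pt × Pt)) (hS3 : ∀ e ∈ S3, e ∈ Pr ∧ p e.1 ∧ Wd e ∈ V e.1)
    (hV : ∀ z ∈ g, p z → D * ∑ w ∈ V z, (#{b ∈ A | (z, b) ∈ Pr ∧ Wd (z, b) = w} : ℝ) ≤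
      250 * #A) :
    D * #S3 ≤ 250 * #g * #A := by
  have e1 : (#S3 : ℝ) ≤ ∑ z ∈ {z ∈ g | p z}, ∑ w ∈ V z,
      (#{b ∈ A | (z, b) ∈ Pr ∧ Wd (z, b) = w} : ℝ) := by
    have : #S3 ≤ ∑ z ∈ {z ∈ g | p z}, ∑ w ∈ V z,
        #{b ∈ A | (z, b) ∈ Pr ∧ Wd (z, b) = w} := by
      calc #S3 = ∑ z ∈ {z ∈ g | p z}, #{e ∈ S3 | e.1 = z} := by
            apply Finset.card_eq_sum_card_fiberwise
            intro e he
            obtain ⟨h1, h2, h3⟩ := hS3 e (Finset.mem_coe.1 he)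
            exact Finset.mem_coe.2 (Finset.mem_filter.2 ⟨(hPr e h1).1, h2⟩)
        _ ≤ _ := by
            apply Finset.sum_le_sum
            intro z _
            calc #{e ∈ S3 | e.1 = z} ≤ #((V z).biUnion fun w =>
                  ({b ∈ A | (z, b) ∈ Pr ∧ Wd (z, b) = w}).image fun b => (z, b)) := by
                  apply Finset.card_le_card
                  intro e he
                  obtain ⟨h1, h2⟩ := Finset.mem_filter.1 he
                  obtain ⟨h3, h4, h5⟩ := hS3 e h1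
                  subst h2
                  rw [Finset.mem_biUnion]
                  exact ⟨Wd e, h5, Finset.mem_image.2 ⟨e.2, Finset.mem_filter.2
                    ⟨(hPr e h3).2, h3, rfl⟩, rfl⟩⟩
              _ ≤ ∑ w ∈ V z, #(({b ∈ A | (z, b) ∈ Pr ∧ Wd (z, b) = w}).image
                  fun b => (z, b)) := Finset.card_biUnion_le
              _ ≤ _ := Finset.sum_le_sum fun w _ => Finset.card_image_le
    exact_mod_cast this
  calc D * #S3 ≤ D * ∑ z ∈ {z ∈ g | p z}, ∑ w ∈ V z,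
        (#{b ∈ A | (z, b) ∈ Pr ∧ Wd (z, b) = w} : ℝ) := mul_le_mul_of_nonneg_left e1 hD0.le
    _ = ∑ z ∈ {z ∈ g | p z}, D * ∑ w ∈ V z,
        (#{b ∈ A | (z, b) ∈ Pr ∧ Wd (z, b) = w} : ℝ) := Finset.mul_sum _ _ _
    _ ≤ ∑ _z ∈ {z ∈ g | p z}, (250 * #A : ℝ) := by
        apply Finset.sum_le_sum
        intro z hz
        exact hV z (Finset.mem_filter.1 hz).1 (Finset.mem_filter.1 hz).2
    _ = #{z ∈ g | p z} * (250 * #A) := by
        rw [Finset.sum_const, nsmul_eq_mul]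
    _ ≤ #g * (250 * #A) := by
        apply mul_le_mul_of_nonneg_right _ (by positivity)
        exact_mod_cast Finset.card_le_card (Finset.filter_subset _ _)
    _ = 250 * #g * #A := by ring

theorem rk_inj {Q g : Finset Pt} (hx : ∀ p ∈ Q, ∀ q ∈ Q, p.1 = q.1 → p = q) (hg : ∀ z ∈ g, z ∈ Q) :
    ∀ x ∈ g, ∀ y ∈ g, rk g x = rk g y → x = y := by
  intro x hx' y hy he
  apply hx x (hg x hx') y (hg y hy)
  rcases lt_trichotomy x.1 y.1 with h1 | h1 | h1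
  · have := rk_strict g hx' h1
    omega
  · exact h1
  · have := rk_strict g hy h1
    omega

open Classical in
/-- the cells of the blocks -/
theorem cells {K lam : ℝ} {Q : Finset Pt} {W : Finset ℕ} {I : ℕ → Set ℝ}
    {R : ℕ → Finset Pt} (h : JView K lam Q W I R) {c : Pt} {w0 : ℕ}
    (hw0 : w0 ∈ W) {g : Finset Pt} (hg : ∀ z ∈ g, z ∈ Q ∧ sl c z ∈ I w0) (hgne : g.Nonempty)
    (σ : ℝ) (hσ : ∀ z ∈ g, 0 < σ * (z.1 - c.1)) (hσ1 : σ = 1 ∨ σ = -1) (M : ℕ) :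
    ∃ (H : ℕ → ℕ → Set Pt) (Z : ℕ → Finset Pt), (∀ i, ∀ j ∈ Finset.range 4, IsHalf (H i j)) ∧
      (∀ i z, z ∈ Z i ↔ z ∈ Q ∧ ∀ j ∈ Finset.range 4, z ∈ H i j) ∧
      (∀ z ∈ g, z ∈ Z (rk g z / M)) ∧ (∀ i j, i < j → Disjoint (Z i) (Z j)) ∧
      (∀ i, Z i ⊆ {p ∈ Q | sl c p ∈ I w0}) := by
  -- extreme slopes
  obtain ⟨za, hza, hzamin⟩ := Finset.exists_min_image g (fun z => sl c z) hgne
  obtain ⟨zb, hzb, hzbmax⟩ := Finset.exists_max_image g (fun z => sl c z) hgne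
  set t1 := sl c za with ht1
  set t2 := sl c zb with ht2
  set B : ℕ → Finset Pt := fun i => {z ∈ g | rk g z / M = i} with hB
  set H : ℕ → ℕ → Set Pt := fun i => HH c σ t1 t2 (B i) with hH
  set Z : ℕ → Finset Pt := fun i => {p ∈ Q | ∀ j ∈ Finset.range 4, p ∈ H i j} with hZ
  have hZiff : ∀ i z, z ∈ Z i ↔ z ∈ Q ∧ ∀ j ∈ Finset.range 4, z ∈ H i j := fun i z =>
    Finset.mem_filter
  have hZ4 : ∀ i z, z ∈ Z i ↔ z ∈ Q ∧ (∃ x ∈ B i, x.1 ≤ z.1) ∧ (∃ x ∈ B i, z.1 ≤ x.1) ∧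
      t1 * (σ * (z.1 - c.1)) ≤ σ * (z.2 - c.2) ∧ σ * (z.2 - c.2) ≤ t2 * (σ * (z.1 - c.1)) := by
    intro i z
    rw [hZiff]
    apply and_congr_right
    intro _
    constructor
    · intro h1
      exact ⟨h1 0 (by simp), h1 1 (by simp), h1 2 (by simp), h1 3 (by simp)⟩
    · rintro ⟨h1, h2, h3, h4⟩ j hj
      rw [Finset.mem_range] at hj
      interval_cases j
      · exact h1
      · exact h2
      · exact h3
      · exact h4
  have hlt : ∀ x y : Pt, rk g x / M < rk g y / M → x.1 < y.1 := by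
    intro x y hxy
    apply rk_lt g
    by_contra hcon
    exact absurd (Nat.div_le_div_right (c := M) (not_lt.1 hcon)) (not_le.2 hxy)
  refine ⟨H, Z, fun i j _ => HH_isHalf _ _ _ _ _ _, hZiff, ?_, ?_, ?_⟩
  · intro z hz
    rw [hZ4]
    have hzB : z ∈ B (rk g z / M) := Finset.mem_filter.2 ⟨hz, rfl⟩
    exact ⟨(hg z hz).1, ⟨z, hzB, le_rfl⟩, ⟨z, hzB, le_rfl⟩, (sl_σ (hσ z hz)).1.1 (hzamin z hz),
      (sl_σ (hσ z hz)).2.1 (hzbmax z hz)⟩
  · intro i j hij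
    rw [Finset.disjoint_left]
    intro p hp hp'
    obtain ⟨-, -, ⟨x, hx, hx'⟩, -⟩ := (hZ4 i p).1 hp
    obtain ⟨-, ⟨y, hy, hy'⟩, -, -⟩ := (hZ4 j p).1 hp'
    have h1 : rk g x / M = i := (Finset.mem_filter.1 hx).2
    have h2 : rk g y / M = j := (Finset.mem_filter.1 hy).2
    have := hlt x y (by omega)
    linarith
  · intro i p hp
    obtain ⟨hpQ, ⟨x, hx, hx'⟩, ⟨y, hy, hy'⟩, h3, h4⟩ := (hZ4 i p).1 hp
    have hxg := (Finset.mem_filter.1 hx).1
    have hyg := (Finset.mem_filter.1 hy).1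
    have hpσ : 0 < σ * (p.1 - c.1) := by
      have a1 := hσ x hxg
      have a2 := hσ y hyg
      rcases hσ1 with rfl | rfl
      · linarith
      · linarith
    refine Finset.mem_filter.2 ⟨hpQ, ?_⟩
    exact (h.conn w0 hw0).out (hg za hza).2 (hg zb hzb).2
      ⟨(sl_σ hpσ).1.2 h3, (sl_σ hpσ).2.2 h4⟩

open Classical in
theorem card_block {g : Finset Pt} (hinjg : ∀ x ∈ g, ∀ y ∈ g, rk g x = rk g y → x = y) (M : ℕ)
    (hM : 1 ≤ M) (i : ℕ) : #{z ∈ g | rk g z / M = i} ≤ M := by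
  have : #{z ∈ g | rk g z / M = i} ≤ #(Finset.Ico (i * M) ((i + 1) * M)) := by
    apply Finset.card_le_card_of_injOn (rk g)
    · intro z hz
      obtain ⟨hz1, hz2⟩ := Finset.mem_filter.1 (Finset.mem_coe.1 hz)
      apply Finset.mem_coe.2
      rw [Finset.mem_Ico]
      subst hz2
      constructor
      · exact Nat.div_mul_le_self _ _
      · rw [Nat.add_mul, one_mul, mul_comm]
        exact Nat.lt_mul_div_succ _ (by omega)
    · intro x hx y hy hxy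
      exact hinjg x (Finset.mem_filter.1 (Finset.mem_coe.1 hx)).1 y
        (Finset.mem_filter.1 (Finset.mem_coe.1 hy)).1 hxy
  refine this.trans ?_
  rw [Nat.card_Ico, Nat.add_mul, one_mul]
  omega

open Classical in
/-- **one group**, one side -/
theorem group_aux {K lam : ℝ} {Q : Finset Pt} {W : Finset ℕ} {I : ℕ → Set ℝ}
    {R : ℕ → Finset Pt} (h : JView K lam Q W I R) (hN : lam ^ 5 ≤ #Q) {c : Pt} {w0 : ℕ} {m0 : ℝ}
    (hw0 : w0 ∈ W) (hm0 : m0 ∈ I w0) {g A : Finset Pt} (hg : ∀ z ∈ g, z ∈ Q ∧ sl c z ∈ I w0)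
    (σ : ℝ) (hσ : ∀ z ∈ g, 0 < σ * (z.1 - c.1)) (hσ1 : σ = 1 ∨ σ = -1)
    {Pr : Finset (Pt × Pt)} {Wd : Pt × Pt → ℕ}
    (hPr : ∀ e ∈ Pr, e.1 ∈ g ∧ e.2 ∈ A ∧ Wd e ∈ W ∧ Wd e ≠ w0 ∧ e.1 ∈ R (Wd e) ∧ e.1.1 ≠ e.2.1 ∧
      sl (prj m0 c e.1) e.2 ∈ I (Wd e)) (L : ℝ) (hL : 1 ≤ L)
    (hA : ∀ z ∈ g, ∀ w ∈ W, lam * #{b ∈ A | (z, b) ∈ Pr ∧ Wd (z, b) = w} ≤ L * #A)
    (M : ℕ) (D : ℝ) (hM : 1 ≤ M) (hD : 1 ≤ D) (hDM : K * L * D ^ 6 * #Q ≤ lam ^ 2 * M) :
    D * #{e ∈ Pr | M ≤ #{z ∈ g | (z, e.2) ∈ Pr ∧ Wd (z, e.2) = Wd e}} ≤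
      (253 * #g + #{p ∈ Q | sl c p ∈ I w0}) * #A := by
  have hK := h.two
  have hlam := h.one
  have hlam0 : 0 < lam := by linarith
  have hM0 : (0 : ℝ) < M := by exact_mod_cast hM
  have hD0 : 0 < D := by linarith
  have hQ0 : (0 : ℝ) ≤ #Q := Nat.cast_nonneg _
  have hA0 : (0 : ℝ) ≤ #A := Nat.cast_nonneg _
  rcases g.eq_empty_or_nonempty with hg0 | hgne
  · have : {e ∈ Pr | M ≤ #{z ∈ g | (z, e.2) ∈ Pr ∧ Wd (z, e.2) = Wd e}} = ∅ := by
      rw [Finset.filter_eq_empty_iff]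
      intro e he
      have := (hPr e he).1
      rw [hg0] at this
      exact absurd this (Finset.notMem_empty _)
    rw [this, Finset.card_empty]
    push_cast
    rw [mul_zero]
    positivity
  have hinjg := rk_inj h.xinj (fun z hz => (hg z hz).1)
  obtain ⟨H, Z, hH, hZiff, hBZ, hZdisj, hZsec⟩ := cells h hw0 hg hgne σ hσ hσ1 M
  have hPr2 : ∀ e ∈ Pr, e.1 ∈ g ∧ e.2 ∈ A := fun e he => ⟨(hPr e he).1, (hPr e he).2.1⟩
  set Bad : Finset (Pt × Pt) := {e ∈ Pr | M ≤ #{z ∈ g | (z, e.2) ∈ Pr ∧ Wd (z, e.2) = Wd e}}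
    with hBad
  set S1 : Finset (Pt × Pt) := {e ∈ Bad | D * #{z ∈ {z ∈ g | (z, e.2) ∈ Pr} |
    Wd (z, e.2) = Wd e ∧ rk g z / M = rk g e.1 / M} ≤ M} with hS1
  set g2 : Finset Pt := {z ∈ g | D * M < #(Z (rk g z / M))} with hg2
  set V : Pt → Finset ℕ := fun z => {w ∈ W | (M : ℝ) ≤ D * #(R w ∩ Z (rk g z / M))} with hV
  set S3 : Finset (Pt × Pt) := {e ∈ Bad | ¬ (D * M < #(Z (rk g e.1 / M))) ∧ Wd e ∈ V e.1}
    with hS3
  have hsub : Bad ⊆ S1 ∪ (g2 ×ˢ A) ∪ S3 := by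
    intro e he
    obtain ⟨he1, he2⟩ := Finset.mem_filter.1 he
    obtain ⟨p1, p2, p3, p4, p5, p6, p7⟩ := hPr e he1
    rw [Finset.mem_union, Finset.mem_union]
    by_cases q1 : D * #{z ∈ {z ∈ g | (z, e.2) ∈ Pr} | Wd (z, e.2) = Wd e ∧
        rk g z / M = rk g e.1 / M} ≤ M
    · exact Or.inl (Or.inl (Finset.mem_filter.2 ⟨he, q1⟩))
    by_cases q2 : D * M < #(Z (rk g e.1 / M))
    · exact Or.inl (Or.inr (Finset.mem_product.2 ⟨Finset.mem_filter.2 ⟨p1, q2⟩, p2⟩))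
    right
    refine Finset.mem_filter.2 ⟨he, q2, Finset.mem_filter.2 ⟨p3, ?_⟩⟩
    refine (not_le.1 q1).le.trans ?_
    apply mul_le_mul_of_nonneg_left _ hD0.le
    have : #{z ∈ {z ∈ g | (z, e.2) ∈ Pr} | Wd (z, e.2) = Wd e ∧
        rk g z / M = rk g e.1 / M} ≤ #(R (Wd e) ∩ Z (rk g e.1 / M)) := by
      apply Finset.card_le_card
      intro z hz
      obtain ⟨z1, z2, z3⟩ := Finset.mem_filter.1 hz
      obtain ⟨z4, z5⟩ := Finset.mem_filter.1 z1
      rw [Finset.mem_inter]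
      constructor
      · have := (hPr _ z5).2.2.2.2.1
        rwa [z2] at this
      · have := hBZ z z4
        rwa [z3] at this
    exact_mod_cast this
  -- S1
  have hc1 : D * #S1 ≤ 3 * #g * #A := by
    apply part1 g A Pr Wd hPr2 hinjg M D hD0
    · intro b x y z x2 y2 z2 hxy hyz hlab
      obtain ⟨-, -, px3, px4, -, px6, px7⟩ := hPr _ x2
      obtain ⟨-, -, py3, py4, -, py6, py7⟩ := hPr _ y2
      obtain ⟨-, -, pz3, pz4, -, pz6, pz7⟩ := hPr _ z2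
      have hm0' : m0 ∉ I (Wd (x, b)) := fun hcon =>
        (Set.disjoint_left.1 (h.disj _ px3 _ hw0 px4)) hcon hm0
      rw [← hlab] at pz7
      have hy' := mono_line (h.conn _ px3) hm0' (rk_lt g hxy) (rk_lt g hyz) px6 py6 pz6
        px7 pz7
      by_contra hne
      exact (Set.disjoint_left.1 (h.disj _ py3 _ px3 hne)) py7 hy'
    · intro e he
      obtain ⟨h1, h2⟩ := Finset.mem_filter.1 he
      obtain ⟨h3, h4⟩ := Finset.mem_filter.1 h1
      exact ⟨h3, h4, h2⟩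
  -- S2
  have hc2 : D * #g2 ≤ #{p ∈ Q | sl c p ∈ I w0} :=
    part2 g _ (fun z => rk g z / M) Z M D hD0 (card_block hinjg M hM) hZdisj hZsec
  -- S3
  have hNM : (#Q : ℝ) ≤ lam ^ 2 * M := by
    refine le_trans ?_ hDM
    have : 1 ≤ K * L * D ^ 6 := by
      have a1 : (1 : ℝ) ≤ D ^ 6 := one_le_pow₀ hD
      have a2 : 1 ≤ K * L := by nlinarith
      nlinarith
    nlinarith
  have hc3 : D * #S3 ≤ 250 * #g * #A := by
    apply part3 g A Pr Wd hPr2 D hD0 V (fun z => ¬ (D * M < #(Z (rk g z / M))))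
    · intro e he
      obtain ⟨h1, h2, h3⟩ := Finset.mem_filter.1 he
      exact ⟨(Finset.mem_filter.1 h1).1, h2, h3⟩
    · intro z hz1 hz2
      have hst := star_cell h hN (H (rk g z / M)) (hH _) (Z (rk g z / M))
        (hZiff _) M hM D hD hNM (not_lt.1 hz2)
      refine arith3 hlam0 hM0 hD0 (by linarith) hA0 ?_ hst hDM
      rw [Finset.mul_sum]
      calc _ ≤ ∑ _w ∈ V z, L * (#A : ℝ) := by
            apply Finset.sum_le_sum
            intro w hw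
            exact hA z hz1 w (Finset.mem_filter.1 hw).1
        _ = _ := by rw [Finset.sum_const, nsmul_eq_mul]
  have hcard : (#Bad : ℝ) ≤ #S1 + #g2 * #A + #S3 := by
    have : #Bad ≤ #S1 + #g2 * #A + #S3 := by
      refine (Finset.card_le_card hsub).trans ((Finset.card_union_le _ _).trans ?_)
      apply Nat.add_le_add_right
      refine (Finset.card_union_le _ _).trans ?_
      rw [Finset.card_product]
    exact_mod_cast this
  calc D * #Bad ≤ D * (#S1 + #g2 * #A + #S3) := mul_le_mul_of_nonneg_left hcard hD0.le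
    _ = D * #S1 + (D * #g2) * #A + D * #S3 := by ring
    _ ≤ 3 * #g * #A + #{p ∈ Q | sl c p ∈ I w0} * #A + 250 * #g * #A := by
        have := mul_le_mul_of_nonneg_right hc2 hA0
        linarith
    _ = (253 * #g + #{p ∈ Q | sl c p ∈ I w0}) * #A := by ring

/-- **one group** -/
theorem stGroup : StGroup := by
  intro K lam Q W I R h hN c w0 m0 hw0 hm0 g A hg hside Pr Wd hPr L hL hA M D hM hD hDM
  rcases hside with hs | hs
  · exact group_aux h hN hw0 hm0 hg 1 (fun z hz => by linarith [hs z hz]) (Or.inl rfl) hPr L hL hA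
      M D hM hD hDM
  · exact group_aux h hN hw0 hm0 hg (-1) (fun z hz => by linarith [hs z hz]) (Or.inr rfl) hPr L hL
      hA M D hM hD hDM

end Vale.Agent.P065.UB.H410
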