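import Vale.Agent.P065.UB.H410.Group

/-!
# P065, upper bound: LEMMA M (helper410)
-/

set_option autoImplicit false

namespace Vale.Agent.P065.UB.H410

open Finset Vale.Agent.P065.UB Vale.Agent.P065.UB.RankAux Vale.Agent.P065.H183
open Vale.Agent.P065.UB.H415 (prj sl_symm sl_prj_le)

/-- distance of the slope to the ends of the hull of its window -/
noncomputable def dd (t1 t2 : ℕ → ℝ) (Wd : Pt × Pt → ℕ) (e : Pt × Pt) : ℝ :=
  min (sl e.1 e.2 - t1 (Wd e)) (t2 (Wd e) - sl e.1 e.2)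

/-- helper415's symmetric quantity -/
noncomputable def th (t1 t2 : ℕ → ℝ) (Wd : Pt × Pt → ℕ) (e : Pt × Pt) : ℝ :=
  dd t1 t2 Wd e * |e.1.1 - e.2.1|

/-- the nearest end -/
noncomputable def sd (t1 t2 : ℕ → ℝ) (Wd : Pt × Pt → ℕ) (e : Pt × Pt) : Bool :=
  decide (sl e.1 e.2 - t1 (Wd e) ≤ t2 (Wd e) - sl e.1 e.2)

/-- the side -/
noncomputable def dr (e : Pt × Pt) : Bool := decide (e.1.1 < e.2.1)

/-- labelled pairs (leaf, centre) with the hulls `[t1 w, t2 w]` of the slopes -/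
structure Lab (Q : Finset Pt) (W : Finset ℕ) (I : ℕ → Set ℝ) (R : ℕ → Finset Pt)
    (A : Finset Pt) (E : Finset (Pt × Pt)) (Wd : Pt × Pt → ℕ) (t1 t2 : ℕ → ℝ) : Prop where
  hE : ∀ e ∈ E, e.1 ∈ A ∧ e.2 ∈ Q ∧ Wd e ∈ W ∧ e.2 ∈ R (Wd e) ∧ e.1.1 ≠ e.2.1 ∧
      sl e.1 e.2 ∈ I (Wd e)
  lo : ∀ e ∈ E, t1 (Wd e) ≤ sl e.1 e.2
  hi : ∀ e ∈ E, sl e.1 e.2 ≤ t2 (Wd e)
  m1 : ∀ e ∈ E, t1 (Wd e) ∈ I (Wd e)
  m2 : ∀ e ∈ E, t2 (Wd e) ∈ I (Wd e)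

open Classical in
theorem exists_hull {Q : Finset Pt} {W : Finset ℕ} {I : ℕ → Set ℝ} {R : ℕ → Finset Pt}
    {A : Finset Pt} {E : Finset (Pt × Pt)} {Wd : Pt × Pt → ℕ}
    (hE : ∀ e ∈ E, e.1 ∈ A ∧ e.2 ∈ Q ∧ Wd e ∈ W ∧ e.2 ∈ R (Wd e) ∧ e.1.1 ≠ e.2.1 ∧
      sl e.1 e.2 ∈ I (Wd e)) : ∃ t1 t2 : ℕ → ℝ, Lab Q W I R A E Wd t1 t2 := by
  set Sl : ℕ → Finset ℝ := fun w => {e ∈ E | Wd e = w}.image fun e => sl e.1 e.2 with hSl
  have hmem : ∀ e ∈ E, sl e.1 e.2 ∈ Sl (Wd e) := fun e he =>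
    Finset.mem_image.2 ⟨e, Finset.mem_filter.2 ⟨he, rfl⟩, rfl⟩
  have hSlI : ∀ w, ∀ s ∈ Sl w, s ∈ I w := by
    intro w s hs
    obtain ⟨e, he, rfl⟩ := Finset.mem_image.1 hs
    obtain ⟨he', rfl⟩ := Finset.mem_filter.1 he
    exact (hE e he').2.2.2.2.2
  exact ⟨fun w => sInf (Sl w : Set ℝ), fun w => sSup (Sl w : Set ℝ),
    { hE := hE
      lo := fun e he => csInf_le (Finset.bddBelow _) (Finset.mem_coe.2 (hmem e he))
      hi := fun e he => le_csSup (Finset.bddAbove _) (Finset.mem_coe.2 (hmem e he))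
      m1 := fun e he => hSlI _ _ (Finset.Nonempty.csInf_mem ⟨_, hmem e he⟩)
      m2 := fun e he => hSlI _ _ (Finset.Nonempty.csSup_mem ⟨_, hmem e he⟩) }⟩

/-- the projection keeps the window -/
theorem moved {K lam : ℝ} {Q : Finset Pt} {W : Finset ℕ} {I : ℕ → Set ℝ}
    {R : ℕ → Finset Pt} (h : JView K lam Q W I R) {A : Finset Pt} {E : Finset (Pt × Pt)}
    {Wd : Pt × Pt → ℕ} {t1 t2 : ℕ → ℝ} (hl : Lab Q W I R A E Wd t1 t2) {c b z : Pt}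
    (hc : (c, z) ∈ E) (hb : (b, z) ∈ E) (ht : th t1 t2 Wd (c, z) ≤ th t1 t2 Wd (b, z)) :
    sl (prj (if sd t1 t2 Wd (c, z) = true then t1 (Wd (c, z)) else t2 (Wd (c, z))) c z) b ∈
      I (Wd (b, z)) := by
  set m0 := (if sd t1 t2 Wd (c, z) = true then t1 (Wd (c, z)) else t2 (Wd (c, z))) with hm0
  have a1 := hl.lo _ hc
  have a2 := hl.hi _ hc
  have a3 := (hl.hE _ hc).2.2.2.2.1
  have a4 := (hl.hE _ hb).2.2.2.2.1
  simp only at a1 a2 a3 a4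
  have hdc : |sl z c - m0| = dd t1 t2 Wd (c, z) := by
    rw [sl_symm z c, hm0]
    unfold dd sd
    simp only [decide_eq_true_eq]
    by_cases hs : sl c z - t1 (Wd (c, z)) ≤ t2 (Wd (c, z)) - sl c z
    · rw [if_pos hs, min_eq_left hs, abs_of_nonneg (by linarith)]
    · rw [if_neg hs, min_eq_right (not_le.1 hs).le, abs_of_nonpos (by linarith)]
      ring
  have hmove : |sl (prj m0 c z) b - sl z b| ≤ dd t1 t2 Wd (b, z) := by
    apply sl_prj_le (Ne.symm a3) (Ne.symm a4)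
    rw [hdc, abs_sub_comm z.1 c.1, abs_sub_comm z.1 b.1]
    exact ht
  have b1 : dd t1 t2 Wd (b, z) ≤ sl b z - t1 (Wd (b, z)) := min_le_left _ _
  have b2 : dd t1 t2 Wd (b, z) ≤ t2 (Wd (b, z)) - sl b z := min_le_right _ _
  rw [sl_symm z b] at hmove
  obtain ⟨b3, b4⟩ := abs_le.1 hmove
  exact (h.conn _ (hl.hE _ hb).2.2.1).out (hl.m1 _ hb) (hl.m2 _ hb) ⟨by linarith, by linarith⟩

open Classical in
/-- one leaf, one key (window, nearest end, side) -/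
theorem key_le {K lam : ℝ} {Q : Finset Pt} {W : Finset ℕ} {I : ℕ → Set ℝ}
    {R : ℕ → Finset Pt} (h : JView K lam Q W I R) (hN : lam ^ 5 ≤ #Q) {A : Finset Pt}
    {E : Finset (Pt × Pt)} {Wd : Pt × Pt → ℕ} {t1 t2 : ℕ → ℝ} (hl : Lab Q W I R A E Wd t1 t2)
    (L : ℝ) (hL : 1 ≤ L)
    (hA : ∀ z ∈ Q, ∀ w ∈ W, lam * #{a ∈ A | (a, z) ∈ E ∧ Wd (a, z) = w} ≤ L * #A)
    (M : ℕ) (D : ℝ) (hM : 1 ≤ M) (hD : 1 ≤ D) (hDM : K * L * D ^ 6 * #Q ≤ lam ^ 2 * M)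
    (c : Pt) (w0 : ℕ) (s0 d0 : Bool) (T : Finset (Pt × Pt))
    (hT : ∀ e ∈ T, (c, e.1) ∈ E ∧ (e.2, e.1) ∈ E ∧ Wd (c, e.1) ≠ Wd (e.2, e.1) ∧
      th t1 t2 Wd (c, e.1) ≤ th t1 t2 Wd (e.2, e.1) ∧ Wd (c, e.1) = w0 ∧
      sd t1 t2 Wd (c, e.1) = s0 ∧ dr (c, e.1) = d0 ∧
      M ≤ #{z ∈ Q | (c, z) ∈ E ∧ (e.2, z) ∈ E ∧ Wd (c, z) = Wd (c, e.1) ∧
        Wd (e.2, z) = Wd (e.2, e.1) ∧ th t1 t2 Wd (c, z) ≤ th t1 t2 Wd (e.2, z) ∧
        sd t1 t2 Wd (c, z) = sd t1 t2 Wd (c, e.1) ∧ dr (c, z) = dr (c, e.1)}) :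
    D * #T ≤ (253 * #{z ∈ Q | (c, z) ∈ E ∧ Wd (c, z) = w0 ∧ sd t1 t2 Wd (c, z) = s0 ∧
      dr (c, z) = d0} + #{p ∈ Q | sl c p ∈ I w0}) * #A := by
  set g : Finset Pt := {z ∈ Q | (c, z) ∈ E ∧ Wd (c, z) = w0 ∧ sd t1 t2 Wd (c, z) = s0 ∧
      dr (c, z) = d0} with hg
  have hmemg : ∀ z ∈ g, (c, z) ∈ E ∧ Wd (c, z) = w0 ∧ sd t1 t2 Wd (c, z) = s0 ∧ dr (c, z) = d0 :=
    fun z hz => (Finset.mem_filter.1 hz).2
  rcases g.eq_empty_or_nonempty with hg0 | ⟨z0, hz0⟩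
  · have hT0 : T = ∅ := by
      rw [Finset.eq_empty_iff_forall_notMem]
      intro e he
      obtain ⟨h1, h2, h3, h4, h5, h6, h7, h8⟩ := hT e he
      have : e.1 ∈ g := Finset.mem_filter.2 ⟨(hl.hE _ h1).2.1, h1, h5, h6, h7⟩
      rw [hg0] at this
      exact absurd this (Finset.notMem_empty _)
    rw [hT0, Finset.card_empty]
    push_cast
    rw [mul_zero]
    positivity
  obtain ⟨hz1, hz2, hz3, hz4⟩ := hmemg z0 hz0
  set m0 : ℝ := if s0 = true then t1 w0 else t2 w0 with hm0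
  have hw0 : w0 ∈ W := hz2 ▸ (hl.hE _ hz1).2.2.1
  have hm0I : m0 ∈ I w0 := by
    rw [hm0]
    split_ifs
    · exact hz2 ▸ hl.m1 _ hz1
    · exact hz2 ▸ hl.m2 _ hz1
  have hgQ : ∀ z ∈ g, z ∈ Q ∧ sl c z ∈ I w0 := by
    intro z hz
    obtain ⟨h1, h2, -, -⟩ := hmemg z hz
    exact ⟨(hl.hE _ h1).2.1, h2 ▸ (hl.hE _ h1).2.2.2.2.2⟩
  have hside : (∀ z ∈ g, c.1 < z.1) ∨ ∀ z ∈ g, z.1 < c.1 := by
    cases hd : d0
    · right
      intro z hz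
      obtain ⟨h1, -, -, h4⟩ := hmemg z hz
      rw [hd] at h4
      unfold dr at h4
      rw [decide_eq_false_iff_not] at h4
      exact lt_of_le_of_ne (not_lt.1 h4) (Ne.symm (hl.hE _ h1).2.2.2.2.1)
    · left
      intro z hz
      obtain ⟨-, -, -, h4⟩ := hmemg z hz
      rw [hd] at h4
      unfold dr at h4
      rw [decide_eq_true_eq] at h4
      exact h4
  set Pr : Finset (Pt × Pt) := {e ∈ g ×ˢ A | (e.2, e.1) ∈ E ∧ Wd (e.2, e.1) ≠ w0 ∧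
    th t1 t2 Wd (c, e.1) ≤ th t1 t2 Wd (e.2, e.1)} with hPr
  have hPrm : ∀ e ∈ Pr, e.1 ∈ g ∧ e.2 ∈ A ∧ (e.2, e.1) ∈ E ∧ Wd (e.2, e.1) ≠ w0 ∧
      th t1 t2 Wd (c, e.1) ≤ th t1 t2 Wd (e.2, e.1) := by
    intro e he
    obtain ⟨h1, h2⟩ := Finset.mem_filter.1 he
    exact ⟨(Finset.mem_product.1 h1).1, (Finset.mem_product.1 h1).2, h2⟩
  have hgrp := stGroup K lam Q W I R h hN c w0 m0 hw0 hm0I g A hgQ hside Pr
    (fun e => Wd (e.2, e.1)) (by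
      intro e he
      obtain ⟨h1, h2, h3, h4, h5⟩ := hPrm e he
      have h6 := hl.hE _ h3
      obtain ⟨g1, g2, g3, g4⟩ := hmemg _ h1
      refine ⟨h1, h2, h6.2.2.1, h4, h6.2.2.2.1, Ne.symm h6.2.2.2.2.1, ?_⟩
      have := moved h hl g1 h3 h5
      rw [g2, g3] at this
      exact this) L hL (by
      intro z hz w hw
      refine le_trans ?_ (hA z (hgQ z hz).1 w hw)
      apply mul_le_mul_of_nonneg_left _ (by linarith [h.one])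
      have : #{b ∈ A | (z, b) ∈ Pr ∧ Wd (b, z) = w} ≤ #{a ∈ A | (a, z) ∈ E ∧ Wd (a, z) = w} := by
        apply Finset.card_le_card
        intro b hb
        obtain ⟨b1, b2, b3⟩ := Finset.mem_filter.1 hb
        exact Finset.mem_filter.2 ⟨b1, (hPrm _ b2).2.2.1, b3⟩
      exact_mod_cast this) M D hM hD hDM
  refine le_trans ?_ hgrp
  apply mul_le_mul_of_nonneg_left _ (by linarith)
  have : #T ≤ #{e ∈ Pr | M ≤ #{z ∈ g | (z, e.2) ∈ Pr ∧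
      (fun e : Pt × Pt => Wd (e.2, e.1)) (z, e.2) = (fun e : Pt × Pt => Wd (e.2, e.1)) e}} := by
    apply Finset.card_le_card
    intro e he
    obtain ⟨h1, h2, h3, h4, h5, h6, h7, h8⟩ := hT e he
    refine Finset.mem_filter.2 ⟨Finset.mem_filter.2 ⟨Finset.mem_product.2
      ⟨Finset.mem_filter.2 ⟨(hl.hE _ h1).2.1, h1, h5, h6, h7⟩, (hl.hE _ h2).1⟩, h2,
      fun hcon => h3 (h5.trans hcon.symm), h4⟩, ?_⟩
    refine h8.trans (Finset.card_le_card ?_)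
    intro z hz
    obtain ⟨k1, k2, k3, k4, k5, k6, k7, k8⟩ := Finset.mem_filter.1 hz
    have hzg : z ∈ g := Finset.mem_filter.2 ⟨k1, k2, k4.trans h5, k7.trans h6, k8.trans h7⟩
    refine Finset.mem_filter.2 ⟨hzg, Finset.mem_filter.2 ⟨Finset.mem_product.2
      ⟨hzg, (hl.hE _ k3).1⟩, k3, ?_, k6⟩, k5⟩
    intro hcon
    have : Wd (e.2, e.1) = w0 := k5.symm.trans hcon
    exact h3 (h5.trans this.symm)
  exact_mod_cast this

open Classical in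
/-- the bad pairs (centre, second leaf) of one leaf `c` -/
noncomputable def LB (Q A : Finset Pt) (E : Finset (Pt × Pt)) (Wd : Pt × Pt → ℕ)
    (t1 t2 : ℕ → ℝ) (M : ℕ) (c : Pt) : Finset (Pt × Pt) :=
  {e ∈ Q ×ˢ A | (c, e.1) ∈ E ∧ (e.2, e.1) ∈ E ∧ Wd (c, e.1) ≠ Wd (e.2, e.1) ∧
      th t1 t2 Wd (c, e.1) ≤ th t1 t2 Wd (e.2, e.1) ∧
      M ≤ #{z ∈ Q | (c, z) ∈ E ∧ (e.2, z) ∈ E ∧ Wd (c, z) = Wd (c, e.1) ∧
        Wd (e.2, z) = Wd (e.2, e.1) ∧ th t1 t2 Wd (c, z) ≤ th t1 t2 Wd (e.2, z) ∧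
        sd t1 t2 Wd (c, z) = sd t1 t2 Wd (c, e.1) ∧ dr (c, z) = dr (c, e.1)}}

open Classical in
/-- one leaf -/
theorem leaf_le {K lam : ℝ} {Q : Finset Pt} {W : Finset ℕ} {I : ℕ → Set ℝ}
    {R : ℕ → Finset Pt} (h : JView K lam Q W I R) (hN : lam ^ 5 ≤ #Q) {A : Finset Pt}
    {E : Finset (Pt × Pt)} {Wd : Pt × Pt → ℕ} {t1 t2 : ℕ → ℝ} (hl : Lab Q W I R A E Wd t1 t2)
    (L : ℝ) (hL : 1 ≤ L)
    (hA : ∀ z ∈ Q, ∀ w ∈ W, lam * #{a ∈ A | (a, z) ∈ E ∧ Wd (a, z) = w} ≤ L * #A)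
    (M : ℕ) (D : ℝ) (hM : 1 ≤ M) (hD : 1 ≤ D) (hDM : K * L * D ^ 6 * #Q ≤ lam ^ 2 * M)
    (c : Pt) : D * #(LB Q A E Wd t1 t2 M c) ≤ 257 * #Q * #A := by
  set B := LB Q A E Wd t1 t2 M c with hB
  set key : Pt → ℕ × Bool × Bool := fun z => (Wd (c, z), sd t1 t2 Wd (c, z), dr (c, z)) with hkey
  set Ks : Finset (ℕ × Bool × Bool) := W ×ˢ (Finset.univ : Finset (Bool × Bool)) with hKs
  have hBm : ∀ e ∈ B, (c, e.1) ∈ E := fun e he => (Finset.mem_filter.1 he).2.1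
  have e1 : (#B : ℝ) = ∑ κ ∈ Ks, (#{e ∈ B | key e.1 = κ} : ℝ) := by
    have : #B = ∑ κ ∈ Ks, #{e ∈ B | key e.1 = κ} := by
      apply Finset.card_eq_sum_card_fiberwise
      intro e he
      have he' := hBm e (Finset.mem_coe.1 he)
      exact Finset.mem_coe.2 (Finset.mem_product.2 ⟨(hl.hE _ he').2.2.1, Finset.mem_univ _⟩)
    exact_mod_cast this
  have e2 : ∀ κ ∈ Ks, D * #{e ∈ B | key e.1 = κ} ≤
      (253 * #{z ∈ Q | (c, z) ∈ E ∧ Wd (c, z) = κ.1 ∧ sd t1 t2 Wd (c, z) = κ.2.1 ∧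
      dr (c, z) = κ.2.2} + #{p ∈ Q | sl c p ∈ I κ.1}) * #A := by
    intro κ _
    apply key_le h hN hl L hL hA M D hM hD hDM c κ.1 κ.2.1 κ.2.2
    intro e he
    obtain ⟨h1, h2⟩ := Finset.mem_filter.1 he
    obtain ⟨h3, h4, h5, h6, h7, h8⟩ := Finset.mem_filter.1 h1
    rw [hkey] at h2
    simp only at h2
    subst h2
    exact ⟨h4, h5, h6, h7, rfl, rfl, rfl, h8⟩
  have e3 : ∑ κ ∈ Ks, #{z ∈ Q | (c, z) ∈ E ∧ Wd (c, z) = κ.1 ∧ sd t1 t2 Wd (c, z) = κ.2.1 ∧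
      dr (c, z) = κ.2.2} ≤ #Q := by
    rw [← Finset.card_biUnion]
    · apply Finset.card_le_card
      intro z hz
      obtain ⟨κ, _, hκ⟩ := Finset.mem_biUnion.1 hz
      exact (Finset.mem_filter.1 hκ).1
    · intro κ _ κ' _ hne
      rw [Function.onFun, Finset.disjoint_left]
      intro z h1 h2
      obtain ⟨-, -, a1, a2, a3⟩ := Finset.mem_filter.1 h1
      obtain ⟨-, -, b1, b2, b3⟩ := Finset.mem_filter.1 h2
      exact hne (Prod.ext (a1.symm.trans b1) (Prod.ext (a2.symm.trans b2) (a3.symm.trans b3)))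
  have e4 : ∑ κ ∈ Ks, #{p ∈ Q | sl c p ∈ I κ.1} ≤ 4 * #Q := by
    rw [hKs, Finset.sum_product]
    simp only [Finset.sum_const, Finset.card_univ, Fintype.card_prod, Fintype.card_bool,
      smul_eq_mul]
    rw [← Finset.mul_sum]
    have : ∑ w ∈ W, #{p ∈ Q | sl c p ∈ I w} ≤ #Q := by
      rw [← Finset.card_biUnion]
      · apply Finset.card_le_card
        intro z hz
        obtain ⟨κ, _, hκ⟩ := Finset.mem_biUnion.1 hz
        exact (Finset.mem_filter.1 hκ).1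
      · intro w hw w' hw' hne
        rw [Function.onFun, Finset.disjoint_left]
        intro z h1 h2
        exact (Set.disjoint_left.1 (h.disj w hw w' hw' hne)) (Finset.mem_filter.1 h1).2
          (Finset.mem_filter.1 h2).2
    omega
  have e3' : ∑ κ ∈ Ks, (#{z ∈ Q | (c, z) ∈ E ∧ Wd (c, z) = κ.1 ∧ sd t1 t2 Wd (c, z) = κ.2.1 ∧
      dr (c, z) = κ.2.2} : ℝ) ≤ #Q := by exact_mod_cast e3
  have e4' : ∑ κ ∈ Ks, (#{p ∈ Q | sl c p ∈ I κ.1} : ℝ) ≤ 4 * #Q := by exact_mod_cast e4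
  calc D * #B = ∑ κ ∈ Ks, D * (#{e ∈ B | key e.1 = κ} : ℝ) := by rw [e1, Finset.mul_sum]
    _ ≤ ∑ κ ∈ Ks, (253 * #{z ∈ Q | (c, z) ∈ E ∧ Wd (c, z) = κ.1 ∧
        sd t1 t2 Wd (c, z) = κ.2.1 ∧ dr (c, z) = κ.2.2} + #{p ∈ Q | sl c p ∈ I κ.1}) * (#A : ℝ) :=
        Finset.sum_le_sum e2
    _ = (253 * ∑ κ ∈ Ks, (#{z ∈ Q | (c, z) ∈ E ∧ Wd (c, z) = κ.1 ∧
        sd t1 t2 Wd (c, z) = κ.2.1 ∧ dr (c, z) = κ.2.2} : ℝ) +
        ∑ κ ∈ Ks, (#{p ∈ Q | sl c p ∈ I κ.1} : ℝ)) * #A := by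
        rw [← Finset.sum_mul, Finset.sum_add_distrib, Finset.mul_sum]
    _ ≤ (253 * #Q + 4 * #Q) * #A := by
        apply mul_le_mul_of_nonneg_right _ (Nat.cast_nonneg _)
        linarith
    _ = 257 * #Q * #A := by ring

/-- the type of a cherry: order of `th`, nearest end and side for the smaller leaf -/
noncomputable def ty (t1 t2 : ℕ → ℝ) (Wd : Pt × Pt → ℕ) (t : Pt × Pt × Pt) : Bool × Bool × Bool :=
  if th t1 t2 Wd (t.1, t.2.2) ≤ th t1 t2 Wd (t.2.1, t.2.2) then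
    (true, sd t1 t2 Wd (t.1, t.2.2), dr (t.1, t.2.2))
  else (false, sd t1 t2 Wd (t.2.1, t.2.2), dr (t.2.1, t.2.2))

theorem ty_true {t1 t2 : ℕ → ℝ} {Wd : Pt × Pt → ℕ} {t t' : Pt × Pt × Pt}
    (h : th t1 t2 Wd (t.1, t.2.2) ≤ th t1 t2 Wd (t.2.1, t.2.2))
    (he : ty t1 t2 Wd t' = ty t1 t2 Wd t) :
    th t1 t2 Wd (t'.1, t'.2.2) ≤ th t1 t2 Wd (t'.2.1, t'.2.2) ∧
    sd t1 t2 Wd (t'.1, t'.2.2) = sd t1 t2 Wd (t.1, t.2.2) ∧
    dr (t'.1, t'.2.2) = dr (t.1, t.2.2) := by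
  unfold ty at he
  rw [if_pos h] at he
  by_cases h' : th t1 t2 Wd (t'.1, t'.2.2) ≤ th t1 t2 Wd (t'.2.1, t'.2.2)
  · rw [if_pos h'] at he
    exact ⟨h', (Prod.ext_iff.1 (Prod.ext_iff.1 he).2).1, (Prod.ext_iff.1 (Prod.ext_iff.1 he).2).2⟩
  · rw [if_neg h'] at he
    exact absurd (Prod.ext_iff.1 he).1 (by simp)

theorem ty_false {t1 t2 : ℕ → ℝ} {Wd : Pt × Pt → ℕ} {t t' : Pt × Pt × Pt}
    (h : ¬ th t1 t2 Wd (t.1, t.2.2) ≤ th t1 t2 Wd (t.2.1, t.2.2))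
    (he : ty t1 t2 Wd t' = ty t1 t2 Wd t) :
    th t1 t2 Wd (t'.2.1, t'.2.2) ≤ th t1 t2 Wd (t'.1, t'.2.2) ∧
    sd t1 t2 Wd (t'.2.1, t'.2.2) = sd t1 t2 Wd (t.2.1, t.2.2) ∧
    dr (t'.2.1, t'.2.2) = dr (t.2.1, t.2.2) := by
  unfold ty at he
  rw [if_neg h] at he
  by_cases h' : th t1 t2 Wd (t'.1, t'.2.2) ≤ th t1 t2 Wd (t'.2.1, t'.2.2)
  · rw [if_pos h'] at he
    exact absurd (Prod.ext_iff.1 he).1 (by simp)
  · rw [if_neg h'] at he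
    exact ⟨(not_le.1 h').le, (Prod.ext_iff.1 (Prod.ext_iff.1 he).2).1,
      (Prod.ext_iff.1 (Prod.ext_iff.1 he).2).2⟩

open Classical in
/-- sum over the leaves -/
theorem sum_leaf {Q A : Finset Pt} {G : Finset (Pt × Pt × Pt)} (f : Pt × Pt × Pt → Pt × Pt × Pt)
    (hf : Function.Injective f) (LBc : Pt → Finset (Pt × Pt)) (D c : ℝ) (hD : 0 ≤ D)
    (hG : ∀ t ∈ G, (f t).1 ∈ A ∧ (f t).2 ∈ LBc (f t).1)
    (hL : ∀ a, D * #(LBc a) ≤ c * #Q * #A) : D * #G ≤ c * #Q * #A ^ 2 := by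
  have e1 : (#G : ℝ) ≤ ∑ a ∈ A, (#(LBc a) : ℝ) := by
    have : #G ≤ ∑ a ∈ A, #(LBc a) := by
      calc #G = ∑ a ∈ A, #{t ∈ G | (f t).1 = a} := by
            apply Finset.card_eq_sum_card_fiberwise
            intro t ht
            exact Finset.mem_coe.2 (hG t (Finset.mem_coe.1 ht)).1
        _ ≤ ∑ a ∈ A, #(LBc a) := by
            apply Finset.sum_le_sum
            intro a _
            apply Finset.card_le_card_of_injOn (fun t => (f t).2)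
            · intro t ht
              obtain ⟨h1, h2⟩ := Finset.mem_filter.1 (Finset.mem_coe.1 ht)
              apply Finset.mem_coe.2
              rw [← h2]
              exact (hG t h1).2
            · intro t ht t' ht' he
              have h1 := (Finset.mem_filter.1 (Finset.mem_coe.1 ht)).2
              have h2 := (Finset.mem_filter.1 (Finset.mem_coe.1 ht')).2
              exact hf (Prod.ext (h1.trans h2.symm) he)
    exact_mod_cast this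
  calc D * #G ≤ D * ∑ a ∈ A, (#(LBc a) : ℝ) := mul_le_mul_of_nonneg_left e1 hD
    _ = ∑ a ∈ A, D * (#(LBc a) : ℝ) := Finset.mul_sum _ _ _
    _ ≤ ∑ _a ∈ A, (c * #Q * #A : ℝ) := Finset.sum_le_sum fun a _ => hL a
    _ = c * #Q * #A ^ 2 := by rw [Finset.sum_const, nsmul_eq_mul]; ring

open Classical in
/-- **LEMMA M** -/
theorem stMult : StMult := by
  intro K lam Q W I R h hN A E Wd hE L hL hA M D hM hD hDM
  obtain ⟨t1, t2, hl⟩ := exists_hull (Q := Q) (W := W) (I := I) (R := R) hE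
  have hD0 : 0 ≤ D := by linarith
  set X : Finset (Pt × Pt × Pt) := {t ∈ A ×ˢ A ×ˢ Q | (t.1, t.2.2) ∈ E ∧ (t.2.1, t.2.2) ∈ E ∧
    Wd (t.1, t.2.2) ≠ Wd (t.2.1, t.2.2)} with hX
  have hXm : ∀ t, t ∈ X ↔ (t.1, t.2.2) ∈ E ∧ (t.2.1, t.2.2) ∈ E ∧
      Wd (t.1, t.2.2) ≠ Wd (t.2.1, t.2.2) := by
    intro t
    rw [hX, Finset.mem_filter]
    constructor
    · exact fun h => h.2
    · intro h
      exact ⟨Finset.mem_product.2 ⟨(hE _ h.1).1, Finset.mem_product.2 ⟨(hE _ h.2.1).1,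
        (hE _ h.1).2.1⟩⟩, h⟩
  set f : Pt × Pt × Pt → Pt × Pt × ℕ × ℕ := fun t =>
    (t.1, t.2.1, Wd (t.1, t.2.2), Wd (t.2.1, t.2.2)) with hf
  have h8 : Fintype.card (Bool × Bool × Bool) ≤ 8 := by decide
  have htypes := types_le X f (ty t1 t2 Wd) h8 M
  set G : Finset (Pt × Pt × Pt) := {x ∈ X | M ≤ #{y ∈ X | f y = f x ∧
    ty t1 t2 Wd y = ty t1 t2 Wd x}} with hG
  -- the bad set of the statement
  have h1 : #{t ∈ A ×ˢ A ×ˢ Q | (t.1, t.2.2) ∈ E ∧ (t.2.1, t.2.2) ∈ E ∧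
        Wd (t.1, t.2.2) ≠ Wd (t.2.1, t.2.2) ∧
        16 * M ≤ #{z ∈ Q | (t.1, z) ∈ E ∧ (t.2.1, z) ∈ E ∧
          Wd (t.1, z) = Wd (t.1, t.2.2) ∧ Wd (t.2.1, z) = Wd (t.2.1, t.2.2)}} ≤
      #{x ∈ X | 16 * M ≤ #{y ∈ X | f y = f x}} := by
    apply Finset.card_le_card
    intro t ht
    obtain ⟨-, a1, a2, a3, a4⟩ := Finset.mem_filter.1 ht
    refine Finset.mem_filter.2 ⟨(hXm t).2 ⟨a1, a2, a3⟩, a4.trans ?_⟩
    apply Finset.card_le_card_of_injOn (fun z => (t.1, t.2.1, z))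
    · intro z hz
      obtain ⟨-, b1, b2, b3, b4⟩ := Finset.mem_filter.1 (Finset.mem_coe.1 hz)
      apply Finset.mem_coe.2
      refine Finset.mem_filter.2 ⟨(hXm _).2 ⟨b1, b2, ?_⟩, ?_⟩
      · simp only
        rw [b3, b4]
        exact a3
      · rw [hf]
        simp only
        rw [b3, b4]
    · intro z _ z' _ he
      exact (Prod.ext_iff.1 (Prod.ext_iff.1 he).2).2
  -- the two orders
  set G1 : Finset (Pt × Pt × Pt) :=
    {t ∈ G | th t1 t2 Wd (t.1, t.2.2) ≤ th t1 t2 Wd (t.2.1, t.2.2)} with hG1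
  set G2 : Finset (Pt × Pt × Pt) :=
    {t ∈ G | ¬ th t1 t2 Wd (t.1, t.2.2) ≤ th t1 t2 Wd (t.2.1, t.2.2)} with hG2
  have hcard : #G = #G1 + #G2 := (Finset.card_filter_add_card_filter_not _).symm
  have hb1 : D * #G1 ≤ 257 * #Q * #A ^ 2 := by
    apply sum_leaf (fun t => (t.1, t.2.2, t.2.1)) _ (fun a => LB Q A E Wd t1 t2 M a) D 257 hD0 _
      (fun a => leaf_le h hN hl L hL hA M D hM hD hDM a)
    · rintro ⟨a, b, z⟩ ⟨a', b', z'⟩ he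
      simp only [Prod.mk.injEq] at he ⊢
      exact ⟨he.1, he.2.2, he.2.1⟩
    · intro t ht
      obtain ⟨k1, k2⟩ := Finset.mem_filter.1 ht
      obtain ⟨k3, k4⟩ := Finset.mem_filter.1 k1
      obtain ⟨k5, k6, k7⟩ := (hXm t).1 k3
      refine ⟨(hE _ k5).1, Finset.mem_filter.2 ⟨Finset.mem_product.2 ⟨(hE _ k5).2.1, (hE _ k6).1⟩,
        k5, k6, k7, k2, k4.trans ?_⟩⟩
      apply Finset.card_le_card_of_injOn (fun y => y.2.2)
      · intro y hy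
        obtain ⟨l1, l2, l3⟩ := Finset.mem_filter.1 (Finset.mem_coe.1 hy)
        obtain ⟨l4, l5, l6⟩ := (hXm y).1 l1
        rw [hf] at l2
        simp only [Prod.mk.injEq] at l2
        obtain ⟨m1, m2, m3, m4⟩ := l2
        obtain ⟨n1, n2, n3⟩ := ty_true k2 l3
        rw [m1] at l4 m3 n1 n2 n3
        rw [m2] at l5 m4 n1
        exact Finset.mem_coe.2 (Finset.mem_filter.2 ⟨(hE _ l4).2.1, l4, l5, m3, m4, n1, n2, n3⟩)
      · intro y hy y' hy' he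
        have l2 := (Finset.mem_filter.1 (Finset.mem_coe.1 hy)).2.1
        have l2' := (Finset.mem_filter.1 (Finset.mem_coe.1 hy')).2.1
        rw [hf] at l2 l2'
        simp only [Prod.mk.injEq] at l2 l2'
        exact Prod.ext (l2.1.trans l2'.1.symm) (Prod.ext (l2.2.1.trans l2'.2.1.symm) he)
  have hb2 : D * #G2 ≤ 257 * #Q * #A ^ 2 := by
    apply sum_leaf (fun t => (t.2.1, t.2.2, t.1)) _ (fun a => LB Q A E Wd t1 t2 M a) D 257 hD0 _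
      (fun a => leaf_le h hN hl L hL hA M D hM hD hDM a)
    · rintro ⟨a, b, z⟩ ⟨a', b', z'⟩ he
      simp only [Prod.mk.injEq] at he ⊢
      exact ⟨he.2.2, he.1, he.2.1⟩
    · intro t ht
      obtain ⟨k1, k2⟩ := Finset.mem_filter.1 ht
      obtain ⟨k3, k4⟩ := Finset.mem_filter.1 k1
      obtain ⟨k5, k6, k7⟩ := (hXm t).1 k3
      refine ⟨(hE _ k6).1, Finset.mem_filter.2 ⟨Finset.mem_product.2 ⟨(hE _ k5).2.1, (hE _ k5).1⟩,
        k6, k5, Ne.symm k7, (not_le.1 k2).le, k4.trans ?_⟩⟩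
      apply Finset.card_le_card_of_injOn (fun y => y.2.2)
      · intro y hy
        obtain ⟨l1, l2, l3⟩ := Finset.mem_filter.1 (Finset.mem_coe.1 hy)
        obtain ⟨l4, l5, l6⟩ := (hXm y).1 l1
        rw [hf] at l2
        simp only [Prod.mk.injEq] at l2
        obtain ⟨m1, m2, m3, m4⟩ := l2
        obtain ⟨n1, n2, n3⟩ := ty_false k2 l3
        rw [m1] at l4 m3 n1
        rw [m2] at l5 m4 n1 n2 n3
        exact Finset.mem_coe.2 (Finset.mem_filter.2 ⟨(hE _ l4).2.1, l5, l4, m4, m3, n1, n2, n3⟩)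
      · intro y hy y' hy' he
        have l2 := (Finset.mem_filter.1 (Finset.mem_coe.1 hy)).2.1
        have l2' := (Finset.mem_filter.1 (Finset.mem_coe.1 hy')).2.1
        rw [hf] at l2 l2'
        simp only [Prod.mk.injEq] at l2 l2'
        exact Prod.ext (l2.1.trans l2'.1.symm) (Prod.ext (l2.2.1.trans l2'.2.1.symm) he)
  have hfin : (#{t ∈ A ×ˢ A ×ˢ Q | (t.1, t.2.2) ∈ E ∧ (t.2.1, t.2.2) ∈ E ∧
        Wd (t.1, t.2.2) ≠ Wd (t.2.1, t.2.2) ∧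
        16 * M ≤ #{z ∈ Q | (t.1, z) ∈ E ∧ (t.2.1, z) ∈ E ∧
          Wd (t.1, z) = Wd (t.1, t.2.2) ∧ Wd (t.2.1, z) = Wd (t.2.1, t.2.2)}} : ℝ) ≤
      2 * (#G1 + #G2) := by
    have := h1.trans htypes
    rw [hcard] at this
    exact_mod_cast this
  calc _ ≤ D * (2 * (#G1 + #G2)) := mul_le_mul_of_nonneg_left hfin hD0
    _ = 2 * (D * #G1 + D * #G2) := by ring
    _ ≤ 1028 * #A ^ 2 * #Q := by nlinarith

end Vale.Agent.P065.UB.H410
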